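import Vale.Agent.P156.H849.GoeDefs
import Mathlib.MeasureTheory.Integral.Bochner.Set

open MeasureTheory Filter Topology

namespace Vale.Agent.P156

/-- Average over the uniform random `d`-regular graph of a functional of the linear statistics
of the unfolded point measure at energy `E`. -/
noncomputable def avgGraph (n d : ℕ) (E : ℝ) {m : ℕ} (f : Fin m → ℝ → ℝ)
    (Φ : (Fin m → ℝ) → ℝ) : ℝ :=
  (∑ G ∈ regularGraphs n d, Φ (fun j => ∫ x, f j x ∂(Xi n d E G))) / (regularGraphs n d).card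

/-- The same average for the normalized GOE matrix. -/
noncomputable def avgGOE (n : ℕ) {m : ℕ} (f : Fin m → ℝ → ℝ) (Φ : (Fin m → ℝ) → ℝ) : ℝ :=
  ∫ w, Φ (fun j => ∫ x, f j x ∂(XiGOE n w)) ∂(goeLaw n)

/-- Target statement. -/
def Target (d : ℕ) : Prop :=
  ∀ (m : ℕ) (f : Fin m → ℝ → ℝ), (∀ j, Continuous (f j)) → (∀ j, HasCompactSupport (f j)) →
  ∀ Φ : (Fin m → ℝ) → ℝ, Continuous Φ → (∃ C : ℝ, ∀ x, |Φ x| ≤ C) →
  Tendsto (fun n : ℕ => ∫ E in Set.Ioo (-(2 * Real.sqrt (d - 1))) (2 * Real.sqrt (d - 1)),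
      |avgGraph n d E f Φ - avgGOE n f Φ|)
    (atTop ⊓ 𝓟 {n : ℕ | d < n ∧ Even (n * d)}) (𝓝 0)

end Vale.Agent.P156
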