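import Vale.Agent.P156.H943.PartC
import Vale.Agent.P156.H814.TII
import Vale.Agent.P156.H653.Final
import Vale.Agent.P156.H12.Final
import Vale.Agent.P156.H167.SpecXMain

/-!
# Assembly: Theorem II, orthogonal invariance and unitary invariance, unconditionally
-/

namespace Vale.Agent.P156.H849

open Vale.Agent.P156

theorem specTII {d : ℕ} (hd : 3 ≤ d) : SpecTII d :=
  H814.specTII (fun _ _ _ h1 h2 mu _ mue h3 h4 h5 h6 _ h7 h8 =>
    H653.wave_of_entropy h1 h2 mu mue h3 h4 h5 h6 h7 h8) hd (H943.specFix hd)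

theorem specOInv {d : ℕ} (hd : 3 ≤ d) : SpecOInv d := H12.specOInv_of_TII (specTII hd)

theorem specX {d : ℕ} (hd : 3 ≤ d) : H167.SpecX d := H167.specX (specOInv hd) (B.specZW d)

end Vale.Agent.P156.H849
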