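import Vale.Agent.P156.H849.Chain
import Vale.Agent.P156.H849.ChainS
import Vale.Agent.P156.H156.SpecSMain

/-!
# The energy averaged theorem, unconditionally
-/

namespace Vale.Agent.P156.H849

open Vale.Agent.P156

theorem specS {d : ℕ} (hd : 3 ≤ d) : SpecS d := H156.specS_of_specOInv hd (specOInv hd)

theorem specGoodLimit {d : ℕ} (hd : 3 ≤ d) : SpecGoodLimit d :=
  G.specGoodLimit_of hd (specS hd) H9.goeLimit

theorem specMain {d : ℕ} (hd : 3 ≤ d) : SpecMain d :=
  specMain_of hd (H943.specLL hd) (specS hd)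

theorem target {d : ℕ} (hd : 3 ≤ d) : Target d :=
  target_of hd (H943.specLL hd) (specS hd)

end Vale.Agent.P156.H849
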