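import Vale.Agent.P156.Defs
import Mathlib.Probability.Distributions.Gaussian.Real
import Mathlib.MeasureTheory.Constructions.Pi

open MeasureTheory ProbabilityTheory
open scoped NNReal

namespace Vale.Agent.P156

/-- The positions on and above the diagonal of an `n` by `n` matrix. -/
abbrev Upper (n : ℕ) : Type := {p : Fin n × Fin n // p.1 ≤ p.2}

/-- The law of the entries on and above the diagonal of a normalized GOE matrix: independent
centred Gaussians, of variance `1/n` off the diagonal and `2/n` on it. -/
noncomputable def goeLaw (n : ℕ) : Measure (Upper n → ℝ) :=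
  Measure.pi fun p => gaussianReal 0 (if p.1.1 = p.1.2 then 2 / (n : ℝ≥0) else 1 / (n : ℝ≥0))

/-- The real symmetric matrix with given entries on and above the diagonal. -/
def goeMat {n : ℕ} (w : Upper n → ℝ) : Matrix (Fin n) (Fin n) ℝ :=
  fun i j => if h : i ≤ j then w ⟨(i, j), h⟩ else w ⟨(j, i), (not_le.mp h).le⟩

theorem goeMat_isHermitian {n : ℕ} (w : Upper n → ℝ) : (goeMat w).IsHermitian := by
  ext i j
  rw [Matrix.conjTranspose_apply, star_trivial]
  unfold goeMat
  rcases lt_trichotomy i j with h | h | h
  · rw [dif_neg (not_le.mpr h), dif_pos h.le]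
  · subst h; rfl
  · rw [dif_pos h.le, dif_neg (not_le.mpr h)]

/-- The unfolded point measure of a normalized GOE matrix at energy `0`. -/
noncomputable def XiGOE (n : ℕ) (w : Upper n → ℝ) : Measure ℝ :=
  ∑ i, Measure.dirac (n / Real.pi * (goeMat_isHermitian w).eigenvalues i)

end Vale.Agent.P156
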