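import Vale.Agent.P156.H849.Upgrade

/-!
# Tightness of the GOE linear statistics from the Wegner bound
-/

open MeasureTheory Filter Topology Finset

namespace Vale.Agent.P156.H849

open Vale.Agent.P156

/-- The Wegner bound at energy zero, in the form used for tightness. -/
def GoeWegner : Prop :=
  ∃ C : ℝ, ∀ᶠ n : ℕ in atTop,
    ∫ w, (∑ i, (1 + ((n : ℝ) * (goeMat_isHermitian w).eigenvalues i) ^ 2)⁻¹) ∂(goeLaw n) ≤ C

theorem goeTight_of_wegner (h : GoeWegner) : GoeTight := by
  obtain ⟨C, hC⟩ := h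
  intro g hg hgs hg0 ε hε
  obtain ⟨M, hM⟩ := hgs.exists_bound_of_continuous hg
  have hM0 : 0 ≤ M := (norm_nonneg _).trans (hM 0)
  obtain ⟨B, hB⟩ := hgs.isCompact.isBounded.subset_closedBall (0 : ℝ)
  set B' : ℝ := |B| with hB'
  -- pointwise domination
  have hdom : ∀ x : ℝ, g (x / Real.pi) ≤ M * (1 + (Real.pi * B') ^ 2) * (1 + x ^ 2)⁻¹ := by
    intro x
    by_cases hx : g (x / Real.pi) = 0
    · rw [hx]; positivity
    · have hmem : x / Real.pi ∈ tsupport g := subset_tsupport _ hx
      have h1 := hB hmem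
      rw [mem_closedBall_zero_iff, Real.norm_eq_abs] at h1
      have h2 : |x / Real.pi| ≤ B' := h1.trans (le_abs_self _)
      rw [abs_div, abs_of_pos Real.pi_pos, div_le_iff₀ Real.pi_pos] at h2
      have h3 : x ^ 2 ≤ (Real.pi * B') ^ 2 := by
        rw [← sq_abs x]
        exact pow_le_pow_left₀ (abs_nonneg _) (by linarith) 2
      have h4 : g (x / Real.pi) ≤ M := (le_abs_self _).trans (hM _)
      rw [← div_eq_mul_inv, le_div_iff₀ (by positivity)]
      nlinarith [mul_nonneg hM0 (sub_nonneg.mpr h3), sq_nonneg x]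
  set K : ℝ := M * (1 + (Real.pi * B') ^ 2) with hK
  have hK0 : 0 ≤ K := by positivity
  refine ⟨K * |C| / ε, ?_⟩
  filter_upwards [hC] with n hn
  have hW : IsProbabilityMeasure (goeLaw n) := by unfold goeLaw; infer_instance
  set S : (Upper n → ℝ) → ℝ := fun w =>
    ∑ i, (1 + ((n : ℝ) * (goeMat_isHermitian w).eigenvalues i) ^ 2)⁻¹ with hS
  have hS0 : ∀ w, 0 ≤ S w := fun w => Finset.sum_nonneg fun i _ => by positivity
  have hSc : Continuous S := by
    refine continuous_sum_eigenvalues (fun w : Upper n → ℝ => goeMat w) (continuous_goeMat n)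
      goeMat_isHermitian (fun x => (1 + ((n : ℝ) * x) ^ 2)⁻¹) ?_
    refine Continuous.inv₀ (by fun_prop) fun x => ?_
    positivity
  have hSb : ∀ w, S w ≤ n := by
    intro w
    calc S w ≤ ∑ _i : Fin n, (1 : ℝ) := Finset.sum_le_sum fun i _ => by
          apply inv_le_one_of_one_le₀
          nlinarith [sq_nonneg ((n : ℝ) * (goeMat_isHermitian w).eigenvalues i)]
      _ = n := by simp
  have hSi : Integrable S (goeLaw n) := by
    refine Integrable.of_bound hSc.aestronglyMeasurable n (Eventually.of_forall fun w => ?_)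
    rw [Real.norm_eq_abs, abs_of_nonneg (hS0 w)]
    exact hSb w
  have hle : ∀ w, ∫ x, g x ∂(XiGOE n w) ≤ K * S w := by
    intro w
    rw [integral_XiGOE, hS, Finset.mul_sum]
    refine Finset.sum_le_sum fun i _ => ?_
    have := hdom ((n : ℝ) * (goeMat_isHermitian w).eigenvalues i)
    rwa [mul_div_right_comm] at this
  by_cases hKC : K * |C| = 0
  · -- the statistic vanishes almost surely
    have h1 : ∫ w, K * S w ∂(goeLaw n) ≤ 0 := by
      rw [integral_const_mul]
      rcases mul_eq_zero.mp hKC with h | h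
      · rw [h, zero_mul]
      · have : C = 0 := abs_eq_zero.mp h
        rw [this] at hn
        exact mul_nonpos_of_nonneg_of_nonpos hK0 hn
    have h2 : (fun w => K * S w) =ᵐ[goeLaw n] 0 := by
      rw [← integral_eq_zero_iff_of_nonneg (fun w => mul_nonneg hK0 (hS0 w)) (hSi.const_mul K)]
      exact le_antisymm h1 (integral_nonneg fun w => mul_nonneg hK0 (hS0 w))
    have h3 : (goeLaw n) {w | K * |C| / ε < ∫ x, g x ∂(XiGOE n w)} = 0 := by
      rw [hKC, zero_div]
      refine measure_mono_null (fun w hw => ?_) h2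
      rw [Set.mem_setOf_eq] at hw
      show ¬ ((fun w => K * S w) w = (0 : (Upper n → ℝ) → ℝ) w)
      have := hle w
      simp only [Pi.zero_apply]
      intro h0
      linarith
    rw [measureReal_def, h3]
    simpa using hε.le
  · have hpos : 0 < K * |C| := lt_of_le_of_ne (by positivity) (Ne.symm hKC)
    have hmk := mul_meas_ge_le_integral_of_nonneg (μ := goeLaw n) (f := fun w => K * S w)
      (Eventually.of_forall fun w => mul_nonneg hK0 (hS0 w)) (hSi.const_mul K) (K * |C| / ε)
    rw [integral_const_mul] at hmk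
    have h1 : K * ∫ w, S w ∂(goeLaw n) ≤ K * |C| :=
      mul_le_mul_of_nonneg_left (hn.trans (le_abs_self C)) hK0
    have h2 : K * |C| / ε * (goeLaw n).real {w | K * |C| / ε ≤ K * S w} ≤ K * |C| := by
      refine le_trans ?_ h1
      exact hmk
    have h3 : (goeLaw n).real {w | K * |C| / ε ≤ K * S w} ≤ ε := by
      rw [div_mul_eq_mul_div, div_le_iff₀ hε] at h2
      exact le_of_mul_le_mul_left h2 hpos
    refine le_trans (measureReal_mono (fun w hw => ?_) (measure_ne_top _ _)) h3
    rw [Set.mem_setOf_eq] at hw ⊢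
    exact hw.le.trans (hle w)

end Vale.Agent.P156.H849
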