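import Vale.Agent.P156.H849.Target

open MeasureTheory Filter Topology

namespace Vale.Agent.P156

/-- Target statement at every fixed bulk energy: joint convergence of all linear statistics of
the unfolded point measure, compared with the GOE. -/
def TargetFixed (d : ℕ) : Prop :=
  ∀ E : ℝ, -(2 * Real.sqrt (d - 1)) < E → E < 2 * Real.sqrt (d - 1) →
  ∀ (m : ℕ) (f : Fin m → ℝ → ℝ), (∀ j, Continuous (f j)) → (∀ j, HasCompactSupport (f j)) →
  ∀ Φ : (Fin m → ℝ) → ℝ, Continuous Φ → (∃ C : ℝ, ∀ x, |Φ x| ≤ C) →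
  Tendsto (fun n : ℕ => avgGraph n d E f Φ - avgGOE n f Φ)
    (atTop ⊓ 𝓟 {n : ℕ | d < n ∧ Even (n * d)}) (𝓝 0)

end Vale.Agent.P156
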