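import Mathlib.Combinatorics.SimpleGraph.Finite
import Mathlib.MeasureTheory.Measure.ProbabilityMeasure
import Mathlib.MeasureTheory.Constructions.BorelSpace.Order
import Mathlib.Analysis.InnerProductSpace.PiL2
import Mathlib.MeasureTheory.Measure.Haar.InnerProductSpace

/-!
# Star laws of a vector field on a regular graph

`ords G d v` : the orderings of `d` distinct neighbours of `v`;
`starM G d f` : the law of `(f v ; f w_1, ..., f w_d)`, `v` uniform, `(w_j)` a uniform ordering
of the neighbourhood of `v`;
`Charged d k lam X` : the law `X` is charged by almost eigenvectors (of energy `lam`) of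
random `d`-regular graphs.
-/

open MeasureTheory Filter Topology
open scoped ENNReal

noncomputable section

namespace Vale.Agent.P156.H849

/-- The space of the values of a field with `k` components. -/
abbrev Ek (k : ℕ) : Type := EuclideanSpace ℝ (Fin k)

/-- The space of star configurations: the value at the centre, the values at the leaves. -/
abbrev StarSp (d k : ℕ) : Type := Ek k × (Fin d → Ek k)

/-- Orderings of `d` distinct neighbours of `v`. -/
def ords {V : Type*} [Fintype V] (G : SimpleGraph V) (d : ℕ) (v : V) : Finset (Fin d → V) := by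
  classical exact Finset.univ.filter fun o => Function.Injective o ∧ ∀ i, G.Adj v (o i)

/-- The star law of `f` (a probability measure when `G` is `d`-regular). -/
def starM {V : Type*} [Fintype V] {α : Type*} [MeasurableSpace α]
    (G : SimpleGraph V) (d : ℕ) (f : V → α) : Measure (α × (Fin d → α)) :=
  ∑ v : V, ∑ o ∈ ords G d v,
    (((Fintype.card V : ℝ≥0∞) * (d.factorial : ℝ≥0∞))⁻¹) • Measure.dirac (f v, fun i => f (o i))

/-- The `d`-regular graphs on `Fin n`. -/
def regG (d n : ℕ) : Finset (SimpleGraph (Fin n)) := by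
  classical exact Finset.univ.filter fun G => G.IsRegularOfDegree d

/-- `f` is a vector field on `Fin n` with `sum |f|^2 ≤ k n` and
`sum |A f - lam f|^2 ≤ delta n`. -/
def AlmostEig {n : ℕ} (G : SimpleGraph (Fin n)) (k : ℕ) (lam delta : ℝ)
    (f : Fin n → Ek k) : Prop := by
  classical exact
  (∑ v, ‖f v‖ ^ 2 ≤ (k : ℝ) * n) ∧
    (∑ v, ‖(∑ w ∈ G.neighborFinset v, f w) - lam • f v‖ ^ 2 ≤ delta * n)

/-- The law `X` on the star space is charged: every neighbourhood of `X` contains, for all
small `delta` and large `n`, the star laws of almost eigenvectors of a positive proportion of the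
`d`-regular graphs on `Fin n`. -/
def Charged (d k : ℕ) (lam : ℝ) (X : ProbabilityMeasure (StarSp d k)) : Prop :=
  ∀ U ∈ 𝓝 X, ∃ c : ℝ, 0 < c ∧ ∀ delta : ℝ, 0 < delta → ∀ n0 : ℕ, ∃ n : ℕ, n0 ≤ n ∧
    0 < (regG d n).card ∧ ∃ B : Finset (SimpleGraph (Fin n)), B ⊆ regG d n ∧
      c * (regG d n).card ≤ B.card ∧
      ∀ G ∈ B, ∃ f : Fin n → Ek k, AlmostEig G k lam delta f ∧
        ∃ Y ∈ U, (Y : Measure (StarSp d k)) = starM G d f

end Vale.Agent.P156.H849
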