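import Mathlib.Analysis.Matrix.Spectrum
import Mathlib.Topology.ContinuousMap.Weierstrass
import Mathlib.Topology.Instances.Matrix
import Mathlib.Topology.UniformSpace.UniformApproximation

/-!
# Linear statistics of the eigenvalues of a symmetric matrix are continuous
-/

open Matrix Filter Topology

namespace Vale.Agent.P156.H849

variable {ι : Type*} [Fintype ι] [DecidableEq ι]

theorem trace_pow_eq {A : Matrix ι ι ℝ} (hA : A.IsHermitian) (k : ℕ) :
    (A ^ k).trace = ∑ i, hA.eigenvalues i ^ k := by
  conv_lhs => rw [hA.spectral_theorem, ← map_pow, Unitary.conjStarAlgAut_apply]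
  rw [Matrix.trace_mul_cycle, ← Unitary.coe_star, ← Submonoid.coe_mul, Unitary.star_mul_self,
    OneMemClass.coe_one, one_mul, Matrix.diagonal_pow, Matrix.trace_diagonal]
  rfl

theorem trace_aeval_eq {A : Matrix ι ι ℝ} (hA : A.IsHermitian) (p : Polynomial ℝ) :
    (Polynomial.aeval A p).trace = ∑ i, p.eval (hA.eigenvalues i) := by
  rw [Polynomial.aeval_eq_sum_range, Matrix.trace_sum]
  simp only [Matrix.trace_smul, trace_pow_eq hA, Polynomial.eval_eq_sum_range, smul_eq_mul]
  rw [Finset.sum_comm]
  simp only [Finset.mul_sum]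

/-- Every eigenvalue is bounded by the Hilbert-Schmidt norm. -/
theorem sq_eigenvalue_le {A : Matrix ι ι ℝ} (hA : A.IsHermitian) (i : ι) :
    hA.eigenvalues i ^ 2 ≤ ∑ a, ∑ b, A a b ^ 2 := by
  have h1 : (A ^ 2).trace = ∑ a, ∑ b, A a b ^ 2 := by
    rw [pow_two, Matrix.trace]
    refine Finset.sum_congr rfl fun a _ => ?_
    rw [Matrix.diag_apply, Matrix.mul_apply]
    refine Finset.sum_congr rfl fun b _ => ?_
    have : A b a = A a b := by
      have := congrFun (congrFun hA a) b
      rw [Matrix.conjTranspose_apply, star_trivial] at this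
      exact this
    rw [this, pow_two]
  rw [← h1, trace_pow_eq hA]
  exact Finset.single_le_sum (f := fun i => hA.eigenvalues i ^ 2) (fun i _ => sq_nonneg _)
    (Finset.mem_univ i)

/-- Linear statistics of the eigenvalues depend continuously on the matrix. -/
theorem continuous_sum_eigenvalues {X : Type*} [TopologicalSpace X] (M : X → Matrix ι ι ℝ)
    (hM : Continuous M) (hH : ∀ x, (M x).IsHermitian) (f : ℝ → ℝ) (hf : Continuous f) :
    Continuous fun x => ∑ i, f ((hH x).eigenvalues i) := by
  refine continuous_of_locally_uniform_approx_of_continuousAt fun x0 u hu => ?_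
  obtain ⟨ε, hε, hεu⟩ := Metric.mem_uniformity_dist.mp hu
  -- a neighbourhood on which the eigenvalues stay in a compact interval
  have hnc : Continuous fun x => ∑ a, ∑ b, M x a b ^ 2 := by
    refine continuous_finsetSum _ fun a _ => continuous_finsetSum _ fun b _ => ?_
    exact (hM.matrix_elem a b).pow 2
  set R : ℝ := (∑ a, ∑ b, M x0 a b ^ 2) + 1 with hR
  have hR1 : 1 ≤ R := by
    have : 0 ≤ ∑ a, ∑ b, M x0 a b ^ 2 := by positivity
    linarith
  have hnb : {x | ∑ a, ∑ b, M x a b ^ 2 < R} ∈ 𝓝 x0 :=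
    (hnc.tendsto x0).eventually_lt_const (by rw [hR]; linarith)
  have hbd : ∀ x, ∑ a, ∑ b, M x a b ^ 2 < R → ∀ i, (hH x).eigenvalues i ∈ Set.Icc (-R) R := by
    intro x hx i
    have h1 := (sq_eigenvalue_le (hH x) i).trans hx.le
    have h2 : (hH x).eigenvalues i ^ 2 ≤ R ^ 2 := by nlinarith
    exact ⟨by nlinarith [abs_le_of_sq_le_sq' h2 (by linarith)],
      (abs_le_of_sq_le_sq' h2 (by linarith)).2⟩
  -- polynomial approximation
  set δ : ℝ := ε / (2 * (Fintype.card ι + 1)) with hδ
  have hc : (0 : ℝ) ≤ Fintype.card ι := Nat.cast_nonneg _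
  have hδ0 : 0 < δ := by positivity
  obtain ⟨p, hp⟩ := exists_polynomial_near_of_continuousOn (-R) R f hf.continuousOn δ hδ0
  refine ⟨_, hnb, fun x => (Polynomial.aeval (M x) p).trace, ?_, fun y hy => hεu ?_⟩
  · refine Continuous.continuousAt ?_
    apply Continuous.matrix_trace
    simp only [Polynomial.aeval_eq_sum_range]
    refine continuous_finsetSum _ fun k _ => ?_
    exact Continuous.const_smul (Continuous.pow hM k) (p.coeff k)
  · show dist (∑ i, f ((hH y).eigenvalues i)) ((Polynomial.aeval (M y) p).trace) < ε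
    rw [trace_aeval_eq (hH y), Real.dist_eq, ← Finset.sum_sub_distrib]
    refine lt_of_le_of_lt (Finset.abs_sum_le_sum_abs _ _) ?_
    have : ∀ i ∈ Finset.univ, |f ((hH y).eigenvalues i) - Polynomial.eval ((hH y).eigenvalues i) p|
        ≤ δ := fun i _ => by
      rw [abs_sub_comm]
      exact (hp _ (hbd y hy i)).le
    refine lt_of_le_of_lt (Finset.sum_le_sum this) ?_
    rw [Finset.sum_const, nsmul_eq_mul, Finset.card_univ, hδ, ← mul_div_assoc, div_lt_iff₀
      (by positivity)]
    nlinarith

end Vale.Agent.P156.H849
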