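import Vale.Agent.P156.H849.Upgrade
import Vale.Agent.P156.H942.Vol45
import Vale.Agent.P156.H801.UI
import Vale.Agent.P156.G.Final
import Vale.Agent.P156.H9.Final
import Vale.Agent.P156.H625.Tight

/-!
# Assembly of the energy averaged theorem

`Target d` from the soft local law `SpecLL` and the block `SpecS`.
-/

namespace Vale.Agent.P156.H849

open Vale.Agent.P156

theorem specMain_of {d : ℕ} (hd : 3 ≤ d) (hLL : SpecLL d) (hS : SpecS d) : SpecMain d :=
  H942.specMain_of hd (G.specGoodLimit_of hd hS H9.goeLimit) hLL (H801.specUI_of_LL hd hLL)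

theorem target_of {d : ℕ} (hd : 3 ≤ d) (hLL : SpecLL d) (hS : SpecS d) : Target d :=
  target_of_specMain d hd (specMain_of hd hLL hS) H625.goeTight

end Vale.Agent.P156.H849
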