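import Vale.Agent.P156.FE.Main
import Vale.Agent.P156.B.FE9
import Vale.Agent.P156.H894.FE8
import Vale.Agent.P156.H9.Proc

/-!
# The fixed energy theorem, unconditionally
-/

namespace Vale.Agent.P156.H849

open Vale.Agent.P156

theorem specBS1 {d : ℕ} {a b : ℝ} (hB : FE.Bulk d a b) : FE.SpecBS1 d a b :=
  have h3 : 3 ≤ d := hB.1
  FE.specBS1_of_specBS (B.specBS (by omega) (B.specErr (by omega) (H574.specDec d)
    (H520.specWard d)))

/-- **Bulk universality at every fixed energy.** -/
theorem targetFixed {d : ℕ} (hd : 3 ≤ d) : TargetFixed d :=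
  FE.targetFixed_of hd (fun _ _ hB => FE.specOS1 hB) (fun _ _ hB => specBS1 hB)

end Vale.Agent.P156.H849
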