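import Mathlib.Topology.ContinuousMap.StoneWeierstrass
import Mathlib.MeasureTheory.Integral.Bochner.Set
import Mathlib.MeasureTheory.Constructions.BorelSpace.Basic
import Mathlib.Algebra.MvPolynomial.Eval
import Mathlib.Analysis.SpecialFunctions.Log.Basic

/-!
# Comparison of laws of nonnegative vectors by finitely many Laplace transforms
-/

open MeasureTheory Filter Topology

namespace Vale.Agent.P156.H849

section Weierstrass

variable {ι : Type*} [Fintype ι]

/-- The compact cube. -/
abbrev Cube (ι : Type*) : Type _ := ι → Set.Icc (0 : ℝ) 1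

/-- Coordinate functions on the cube. -/
def coordC (i : ι) : C(Cube ι, ℝ) := ⟨fun z => (z i : ℝ), by fun_prop⟩

/-- Weierstrass approximation on the cube by polynomials in several variables. -/
theorem exists_mvPoly_near (h : C(Cube ι, ℝ)) {ε : ℝ} (hε : 0 < ε) :
    ∃ P : MvPolynomial ι ℝ, ∀ z : Cube ι,
      |MvPolynomial.eval (fun i => (z i : ℝ)) P - h z| < ε := by
  set A : Subalgebra ℝ C(Cube ι, ℝ) := Algebra.adjoin ℝ (Set.range (coordC (ι := ι))) with hA
  have hsep : A.SeparatesPoints := by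
    intro x y hxy
    have : ∃ i, x i ≠ y i := by
      by_contra hcon
      push Not at hcon
      exact hxy (funext hcon)
    obtain ⟨i, hi⟩ := this
    refine ⟨coordC i, ⟨coordC i, Algebra.subset_adjoin ⟨i, rfl⟩, rfl⟩, ?_⟩
    intro hc
    exact hi (Subtype.ext hc)
  obtain ⟨g, hg⟩ := ContinuousMap.exists_mem_subalgebra_near_continuousMap_of_separatesPoints
    A hsep h ε hε
  have hg2 : (g : C(Cube ι, ℝ)) ∈ (MvPolynomial.aeval (coordC (ι := ι)) :
      MvPolynomial ι ℝ →ₐ[ℝ] C(Cube ι, ℝ)).range := by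
    have hAr : A = (MvPolynomial.aeval (coordC (ι := ι)) :
        MvPolynomial ι ℝ →ₐ[ℝ] C(Cube ι, ℝ)).range := by
      rw [hA, Algebra.adjoin_range_eq_range_aeval]
    exact (SetLike.ext_iff.mp hAr _).mp g.2
  obtain ⟨P, hP⟩ := hg2
  refine ⟨P, fun z => ?_⟩
  have hev : MvPolynomial.eval (fun i => (z i : ℝ)) P = (g : C(Cube ι, ℝ)) z := by
    rw [← hP]
    have key : (ContinuousMap.evalAlgHom ℝ ℝ z).comp
        (MvPolynomial.aeval (coordC (ι := ι))) =
        MvPolynomial.aeval (fun i => ((z i : Set.Icc (0:ℝ) 1) : ℝ)) := by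
      apply MvPolynomial.algHom_ext
      intro i
      simp [coordC]
    have := congrArg (fun φ => φ P) key
    simp only [AlgHom.comp_apply] at this
    rw [← MvPolynomial.coe_aeval_eq_eval]
    exact this.symm
  rw [hev]
  have := hg
  rw [ContinuousMap.norm_lt_iff _ hε] at this
  simpa using this z

end Weierstrass

section Compare

variable {ι : Type*} [Fintype ι]

/-- The Laplace transform at a vector of natural numbers. -/
noncomputable def lapN (μ : Measure (ι → ℝ)) (t : ι →₀ ℕ) : ℝ :=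
  ∫ y, Real.exp (-(∑ i, (t i : ℝ) * y i)) ∂μ

theorem eval_exp_neg (P : MvPolynomial ι ℝ) (y : ι → ℝ) :
    MvPolynomial.eval (fun i => Real.exp (-(y i))) P =
      ∑ t ∈ P.support, P.coeff t * Real.exp (-(∑ i, (t i : ℝ) * y i)) := by
  rw [MvPolynomial.eval_eq']
  refine Finset.sum_congr rfl fun t _ => ?_
  congr 1
  rw [← Finset.sum_neg_distrib, Real.exp_sum]
  refine Finset.prod_congr rfl fun i _ => ?_
  rw [← Real.exp_nat_mul]
  congr 1
  ring

theorem integrable_lap (μ : Measure (ι → ℝ)) [IsProbabilityMeasure μ]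
    (h0 : ∀ᵐ y ∂μ, ∀ i, 0 ≤ y i) (t : ι →₀ ℕ) :
    Integrable (fun y : ι → ℝ => Real.exp (-(∑ i, (t i : ℝ) * y i))) μ := by
  refine Integrable.of_bound (C := 1) ?_ ?_
  · apply Continuous.aestronglyMeasurable
    fun_prop
  · filter_upwards [h0] with y hy
    rw [Real.norm_eq_abs, abs_of_pos (Real.exp_pos _), Real.exp_le_one_iff, neg_nonpos]
    exact Finset.sum_nonneg fun i _ => mul_nonneg (Nat.cast_nonneg _) (hy i)

theorem integrable_eval (μ : Measure (ι → ℝ)) [IsProbabilityMeasure μ]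
    (h0 : ∀ᵐ y ∂μ, ∀ i, 0 ≤ y i) (P : MvPolynomial ι ℝ) :
    Integrable (fun y : ι → ℝ => MvPolynomial.eval (fun i => Real.exp (-(y i))) P) μ := by
  simp only [eval_exp_neg]
  exact integrable_finsetSum _ fun t _ => (integrable_lap μ h0 t).const_mul _

theorem eval_diff_le (μ ν : Measure (ι → ℝ)) [IsProbabilityMeasure μ] [IsProbabilityMeasure ν]
    (hμ : ∀ᵐ y ∂μ, ∀ i, 0 ≤ y i) (hν : ∀ᵐ y ∂ν, ∀ i, 0 ≤ y i) (P : MvPolynomial ι ℝ) :
    |(∫ y, MvPolynomial.eval (fun i => Real.exp (-(y i))) P ∂μ) -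
      ∫ y, MvPolynomial.eval (fun i => Real.exp (-(y i))) P ∂ν| ≤
      ∑ t ∈ P.support, |P.coeff t| * |lapN μ t - lapN ν t| := by
  simp only [eval_exp_neg]
  rw [integral_finsetSum _ fun t _ => (integrable_lap μ hμ t).const_mul _,
    integral_finsetSum _ fun t _ => (integrable_lap ν hν t).const_mul _,
    ← Finset.sum_sub_distrib]
  refine (Finset.abs_sum_le_sum_abs _ _).trans (Finset.sum_le_sum fun t _ => ?_)
  rw [integral_const_mul, integral_const_mul, ← mul_sub, abs_mul]
  rfl

/-- one-dimensional cut-off: `1` above `a`, `0` below `b`. -/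
noncomputable def cut (a b s : ℝ) : ℝ := max 0 (min 1 ((s - b) / (a - b)))

theorem cut_nonneg (a b s : ℝ) : 0 ≤ cut a b s := le_max_left _ _

theorem cut_le_one (a b s : ℝ) : cut a b s ≤ 1 := max_le zero_le_one (min_le_left _ _)

theorem cut_eq_one {a b s : ℝ} (hab : b < a) (h : a ≤ s) : cut a b s = 1 := by
  unfold cut
  rw [min_eq_left, max_eq_right zero_le_one]
  rw [le_div_iff₀ (by linarith)]
  linarith

theorem cut_eq_zero {a b s : ℝ} (hab : b < a) (h : s ≤ b) : cut a b s = 0 := by
  unfold cut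
  rw [max_eq_left]
  exact (min_le_right _ _).trans (div_nonpos_of_nonpos_of_nonneg (by linarith) (by linarith))

theorem continuous_cut (a b : ℝ) : Continuous (cut a b) := by
  unfold cut
  fun_prop

/-- **Comparison lemma.** For a bounded continuous test function, finitely many Laplace
transforms control the difference of two laws on nonnegative vectors, up to the mass that one of
them puts outside a cube. -/
theorem laplace_compare (Φ : (ι → ℝ) → ℝ) (hΦ : Continuous Φ) {C : ℝ} (hC : ∀ y, |Φ y| ≤ C)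
    (R : ℝ) {ε : ℝ} (hε : 0 < ε) :
    ∃ (T : Finset (ι →₀ ℕ)) (A : ℝ), 0 ≤ A ∧
      ∀ (μ ν : Measure (ι → ℝ)) [IsProbabilityMeasure μ] [IsProbabilityMeasure ν],
      (∀ᵐ y ∂μ, ∀ i, 0 ≤ y i) → (∀ᵐ y ∂ν, ∀ i, 0 ≤ y i) →
      ν.real {y | ∃ i, R < y i} ≤ ε →
      |(∫ y, Φ y ∂μ) - ∫ y, Φ y ∂ν| ≤ (4 * C + 2) * ε + A * ∑ t ∈ T, |lapN μ t - lapN ν t| := by
  classical
  have hC0 : 0 ≤ C := (abs_nonneg _).trans (hC 0)
  set a : ℝ := Real.exp (-R) with ha
  set b : ℝ := Real.exp (-(R + 1)) with hb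
  have hab : b < a := by
    rw [ha, hb]
    exact Real.exp_lt_exp.mpr (by linarith)
  have hb0 : 0 < b := Real.exp_pos _
  -- the two functions on the cube
  let χ : (ι → ℝ) → ℝ := fun z => ∏ i, cut a b (z i)
  have hχc : Continuous χ := continuous_finsetProd _ fun i _ =>
    (continuous_cut a b).comp (continuous_apply i)
  have hχ0 : ∀ z, 0 ≤ χ z := fun z => Finset.prod_nonneg fun i _ => cut_nonneg _ _ _
  have hχ1 : ∀ z, χ z ≤ 1 := fun z => Finset.prod_le_one (fun i _ => cut_nonneg _ _ _)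
    fun i _ => cut_le_one _ _ _
  let h : (ι → ℝ) → ℝ := fun z => Φ (fun i => -Real.log (max (z i) b)) * χ z
  have hhc : Continuous h := by
    refine Continuous.mul (hΦ.comp ?_) hχc
    refine continuous_pi fun i => ?_
    refine Continuous.neg ?_
    refine Continuous.log (by fun_prop) fun z => ?_
    exact (lt_of_lt_of_le hb0 (le_max_right _ _)).ne'
  have hkey : ∀ y : ι → ℝ, h (fun i => Real.exp (-(y i))) =
      Φ y * χ (fun i => Real.exp (-(y i))) := by
    intro y
    by_cases hz : ∃ i, Real.exp (-(y i)) ≤ b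
    · obtain ⟨i, hi⟩ := hz
      have : χ (fun i => Real.exp (-(y i))) = 0 :=
        Finset.prod_eq_zero (Finset.mem_univ i) (cut_eq_zero hab hi)
      simp only [h, this, mul_zero]
    · push Not at hz
      simp only [h]
      congr 2
      funext i
      rw [max_eq_left (hz i).le, Real.log_exp, neg_neg]
  -- approximation by polynomials
  let inc : Cube ι → (ι → ℝ) := fun z i => (z i : ℝ)
  have hinc : Continuous inc := by fun_prop
  obtain ⟨P, hP⟩ := exists_mvPoly_near (⟨fun z => h (inc z), hhc.comp hinc⟩ : C(Cube ι, ℝ)) hε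
  obtain ⟨Q, hQ⟩ := exists_mvPoly_near (⟨fun z => χ (inc z), hχc.comp hinc⟩ : C(Cube ι, ℝ)) hε
  have hPy : ∀ y : ι → ℝ, (∀ i, 0 ≤ y i) →
      |MvPolynomial.eval (fun i => Real.exp (-(y i))) P -
        Φ y * χ (fun i => Real.exp (-(y i)))| < ε := by
    intro y hy
    have := hP (fun i => ⟨Real.exp (-(y i)), (Real.exp_pos _).le,
      Real.exp_le_one_iff.mpr (by linarith [hy i])⟩)
    rw [← hkey y]
    exact this
  have hQy : ∀ y : ι → ℝ, (∀ i, 0 ≤ y i) →
      |MvPolynomial.eval (fun i => Real.exp (-(y i))) Q -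
        χ (fun i => Real.exp (-(y i)))| < ε := by
    intro y hy
    exact hQ (fun i => ⟨Real.exp (-(y i)), (Real.exp_pos _).le,
      Real.exp_le_one_iff.mpr (by linarith [hy i])⟩)
  -- choice of constants
  set cP : ℝ := ∑ t ∈ P.support, |P.coeff t| with hcP
  set cQ : ℝ := ∑ t ∈ Q.support, |Q.coeff t| with hcQ
  have hcP0 : 0 ≤ cP := Finset.sum_nonneg fun _ _ => abs_nonneg _
  have hcQ0 : 0 ≤ cQ := Finset.sum_nonneg fun _ _ => abs_nonneg _
  refine ⟨P.support ∪ Q.support, cP + C * cQ, by positivity, ?_⟩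
  intro μ ν _ _ hμ hν htight
  set S : ℝ := ∑ t ∈ P.support ∪ Q.support, |lapN μ t - lapN ν t| with hS
  have hterm : ∀ t ∈ P.support ∪ Q.support, |lapN μ t - lapN ν t| ≤ S := fun t ht =>
    Finset.single_le_sum (f := fun t => |lapN μ t - lapN ν t|) (fun _ _ => abs_nonneg _) ht
  have hdP := eval_diff_le μ ν hμ hν P
  have hdQ := eval_diff_le μ ν hμ hν Q
  have hdP' : |(∫ y, MvPolynomial.eval (fun i => Real.exp (-(y i))) P ∂μ) -
      ∫ y, MvPolynomial.eval (fun i => Real.exp (-(y i))) P ∂ν| ≤ cP * S := by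
    refine hdP.trans ?_
    rw [hcP, Finset.sum_mul]
    exact Finset.sum_le_sum fun t ht => mul_le_mul_of_nonneg_left
      (hterm t (Finset.mem_union_left _ ht)) (abs_nonneg _)
  have hdQ' : |(∫ y, MvPolynomial.eval (fun i => Real.exp (-(y i))) Q ∂μ) -
      ∫ y, MvPolynomial.eval (fun i => Real.exp (-(y i))) Q ∂ν| ≤ cQ * S := by
    refine hdQ.trans ?_
    rw [hcQ, Finset.sum_mul]
    exact Finset.sum_le_sum fun t ht => mul_le_mul_of_nonneg_left
      (hterm t (Finset.mem_union_right _ ht)) (abs_nonneg _)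
  -- the cut-off as a function of `y`
  set X : (ι → ℝ) → ℝ := fun y => χ (fun i => Real.exp (-(y i))) with hX
  have hXc : Continuous X := hχc.comp (by fun_prop)
  have hXb : ∀ y, |X y| ≤ 1 := fun y => abs_le.mpr ⟨by linarith [hχ0 fun i => Real.exp (-(y i))],
    hχ1 _⟩
  have hX1 : ∀ y, X y ≤ 1 := fun y => hχ1 _
  have hX0 : ∀ y, 0 ≤ X y := fun y => hχ0 _
  have hXint : ∀ (m : Measure (ι → ℝ)) [IsProbabilityMeasure m], Integrable X m := fun m _ =>
    Integrable.of_bound hXc.aestronglyMeasurable 1 (Eventually.of_forall fun y => by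
      rw [Real.norm_eq_abs]; exact hXb y)
  have hΦint : ∀ (m : Measure (ι → ℝ)) [IsProbabilityMeasure m], Integrable Φ m := fun m _ =>
    Integrable.of_bound hΦ.aestronglyMeasurable C (Eventually.of_forall fun y => by
      rw [Real.norm_eq_abs]; exact hC y)
  have hΦXint : ∀ (m : Measure (ι → ℝ)) [IsProbabilityMeasure m],
      Integrable (fun y => Φ y * X y) m := fun m _ =>
    Integrable.of_bound (hΦ.mul hXc).aestronglyMeasurable C (Eventually.of_forall fun y => by
      rw [Real.norm_eq_abs, abs_mul]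
      exact (mul_le_mul (hC y) (hXb y) (abs_nonneg _) hC0).trans (by linarith))
  -- generic bounds
  have hclose : ∀ (m : Measure (ι → ℝ)) [IsProbabilityMeasure m],
      (∀ᵐ y ∂m, ∀ i, 0 ≤ y i) →
      |(∫ y, Φ y ∂m) - ∫ y, MvPolynomial.eval (fun i => Real.exp (-(y i))) P ∂m| ≤
        C * (1 - ∫ y, X y ∂m) + ε ∧
      |(∫ y, X y ∂m) - ∫ y, MvPolynomial.eval (fun i => Real.exp (-(y i))) Q ∂m| ≤ ε := by
    intro m _ hm
    constructor
    · have e1 : (∫ y, Φ y ∂m) - ∫ y, MvPolynomial.eval (fun i => Real.exp (-(y i))) P ∂m =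
          ∫ y, (Φ y - MvPolynomial.eval (fun i => Real.exp (-(y i))) P) ∂m :=
        (integral_sub (hΦint m) (integrable_eval m hm P)).symm
      have e2 : C * (1 - ∫ y, X y ∂m) + ε = ∫ y, (C * (1 - X y) + ε) ∂m := by
        have i1 : Integrable (fun y => 1 - X y) m := (integrable_const _).sub (hXint m)
        have i2 : Integrable (fun y => C * (1 - X y)) m := i1.const_mul C
        rw [integral_add i2 (integrable_const _),
          integral_const_mul, integral_sub (integrable_const _) (hXint m)]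
        simp
      rw [e1, e2, ← Real.norm_eq_abs]
      refine norm_integral_le_of_norm_le
        ((((integrable_const _).sub (hXint m)).const_mul _).add (integrable_const _)) ?_
      filter_upwards [hm] with y hy
      rw [Real.norm_eq_abs]
      have h1 := (hPy y hy).le
      have h2 : |Φ y - Φ y * X y| ≤ C * (1 - X y) := by
        have : Φ y - Φ y * X y = Φ y * (1 - X y) := by ring
        rw [this, abs_mul, abs_of_nonneg (a := 1 - X y) (by linarith [hX1 y])]
        exact mul_le_mul_of_nonneg_right (hC y) (by linarith [hX1 y])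
      have h3 : Φ y - MvPolynomial.eval (fun i => Real.exp (-(y i))) P =
          (Φ y - Φ y * X y) - (MvPolynomial.eval (fun i => Real.exp (-(y i))) P - Φ y * X y) := by
        ring
      rw [h3]
      exact (abs_sub _ _).trans (add_le_add h2 h1)
    · rw [← integral_sub (hXint m) (integrable_eval m hm Q), ← Real.norm_eq_abs]
      have : ε = ∫ _y : ι → ℝ, ε ∂m := by simp
      rw [this]
      refine norm_integral_le_of_norm_le (integrable_const _) ?_
      filter_upwards [hm] with y hy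
      rw [Real.norm_eq_abs, abs_sub_comm]
      exact (hQy y hy).le
  obtain ⟨m1, m2⟩ := hclose μ hμ
  obtain ⟨n1, n2⟩ := hclose ν hν
  -- mass of `1 - X` under `ν`
  have hνX : 1 - ∫ y, X y ∂ν ≤ ε := by
    have e3 : 1 - ∫ y, X y ∂ν = ∫ y, (1 - X y) ∂ν := by
      rw [integral_sub (integrable_const _) (hXint ν)]; simp
    rw [e3]
    refine le_trans ?_ htight
    have hmeas : MeasurableSet {y : ι → ℝ | ∃ i, R < y i} := by
      have : {y : ι → ℝ | ∃ i, R < y i} = ⋃ i, {y | R < y i} := by ext; simp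
      rw [this]
      exact MeasurableSet.iUnion fun i => measurableSet_lt measurable_const (measurable_pi_apply i)
    have e4 : ν.real {y : ι → ℝ | ∃ i, R < y i} =
        ∫ y, ({y : ι → ℝ | ∃ i, R < y i}.indicator (fun _ => (1 : ℝ)) y) ∂ν := by
      rw [integral_indicator hmeas]; simp
    rw [e4]
    refine integral_mono ((integrable_const _).sub (hXint ν))
      ((integrable_const _).indicator hmeas) fun y => ?_
    by_cases hy : ∃ i, R < y i
    · rw [Set.indicator_of_mem (show y ∈ {y : ι → ℝ | ∃ i, R < y i} from hy)]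
      have := hχ0 fun i => Real.exp (-(y i))
      simp only [hX]
      linarith
    · rw [Set.indicator_of_notMem (show y ∉ {y : ι → ℝ | ∃ i, R < y i} from hy)]
      push Not at hy
      have : X y = 1 := by
        simp only [hX, χ]
        exact Finset.prod_eq_one fun i _ => cut_eq_one hab
          (by rw [ha]; exact Real.exp_le_exp.mpr (by linarith [hy i]))
      simp only [this]
      linarith
  have hμX : 1 - ∫ y, X y ∂μ ≤ 3 * ε + cQ * S := by
    have a1 := abs_le.mp m2
    have a2 := abs_le.mp n2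
    have a3 := abs_le.mp hdQ'
    linarith [a1.1, a1.2, a2.1, a2.2, a3.1, a3.2]
  have b1 := abs_le.mp m1
  have b2 := abs_le.mp n1
  have b3 := abs_le.mp hdP'
  have c1 : C * (1 - ∫ y, X y ∂μ) ≤ C * (3 * ε + cQ * S) := mul_le_mul_of_nonneg_left hμX hC0
  have c2 : C * (1 - ∫ y, X y ∂ν) ≤ C * ε := mul_le_mul_of_nonneg_left hνX hC0
  rw [abs_le]
  constructor
  · nlinarith [b1.1, b1.2, b2.1, b2.2, b3.1, b3.2]
  · nlinarith [b1.1, b1.2, b2.1, b2.2, b3.1, b3.2]

end Compare

end Vale.Agent.P156.H849
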