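import Vale.Agent.P156.R2.Spec
import Vale.Agent.P156.H849.EigCont
import Vale.Agent.P156.H849.LaplaceCompare

/-!
# From Laplace functionals to joint convergence of linear statistics on the whole bulk
-/

open MeasureTheory Filter Topology Finset

namespace Vale.Agent.P156.H849

open Vale.Agent.P156

/-- Tightness of the linear statistics of the unfolded GOE point measure. -/
def GoeTight : Prop :=
  ∀ g : ℝ → ℝ, Continuous g → HasCompactSupport g → (∀ x, 0 ≤ g x) →
    ∀ ε > 0, ∃ R : ℝ, ∀ᶠ n : ℕ in atTop, (goeLaw n).real {w | R < ∫ x, g x ∂(XiGOE n w)} ≤ ε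

section Basic

theorem integral_Xi (n d : ℕ) (E : ℝ) (G : SimpleGraph (Fin n)) (g : ℝ → ℝ) :
    ∫ x, g x ∂(Xi n d E G) = ∑ i, g (n * rho d E * (eig G i - E)) := by
  unfold Xi
  rw [integral_finsetSum_measure fun i _ => integrable_dirac (by finiteness)]
  simp

theorem integral_XiGOE (n : ℕ) (w : Upper n → ℝ) (g : ℝ → ℝ) :
    ∫ x, g x ∂(XiGOE n w) = ∑ i, g (n / Real.pi * (goeMat_isHermitian w).eigenvalues i) := by
  unfold XiGOE
  rw [integral_finsetSum_measure fun i _ => integrable_dirac (by finiteness)]
  simp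

theorem continuous_goeMat (n : ℕ) : Continuous fun w : Upper n → ℝ => goeMat w := by
  refine continuous_pi fun i => continuous_pi fun j => ?_
  unfold goeMat
  by_cases h : i ≤ j
  · simp only [dif_pos h]
    exact continuous_apply _
  · simp only [dif_neg h]
    exact continuous_apply _

theorem continuous_integral_XiGOE (n : ℕ) (g : ℝ → ℝ) (hg : Continuous g) :
    Continuous fun w : Upper n → ℝ => ∫ x, g x ∂(XiGOE n w) := by
  simp only [integral_XiGOE]
  exact continuous_sum_eigenvalues _ (continuous_goeMat n) goeMat_isHermitian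
    (fun x => g (n / Real.pi * x)) (by fun_prop)

theorem continuousOn_rho (d : ℕ) (hd : 3 ≤ d) :
    ContinuousOn (rho d) (Set.Ioo (-(2 * Real.sqrt (d - 1))) (2 * Real.sqrt (d - 1))) := by
  have hd' : (3 : ℝ) ≤ d := by exact_mod_cast hd
  unfold rho
  refine ContinuousOn.div (by fun_prop) (by fun_prop) fun t ht => ?_
  have h1 : t ^ 2 < (2 * Real.sqrt (d - 1)) ^ 2 := by
    rw [sq_lt_sq, abs_of_nonneg (by positivity : (0 : ℝ) ≤ 2 * Real.sqrt (d - 1)), abs_lt]
    exact ht
  rw [mul_pow, Real.sq_sqrt (by linarith)] at h1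
  have : 0 < (d : ℝ) ^ 2 - t ^ 2 := by nlinarith
  have := Real.pi_pos
  positivity

theorem continuousOn_integral_Xi (n d : ℕ) (hd : 3 ≤ d) (G : SimpleGraph (Fin n)) (g : ℝ → ℝ)
    (hg : Continuous g) :
    ContinuousOn (fun E => ∫ x, g x ∂(Xi n d E G))
      (Set.Ioo (-(2 * Real.sqrt (d - 1))) (2 * Real.sqrt (d - 1))) := by
  simp only [integral_Xi]
  refine continuousOn_finsetSum _ fun i _ => ?_
  refine hg.comp_continuousOn ?_
  have := continuousOn_rho d hd
  fun_prop

end Basic

section Unif

variable {α β : Type*} [MeasurableSpace β]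

/-- Law of `F ω` for `ω` uniform in `s`. -/
noncomputable def unifMap (s : Finset α) (F : α → β) : Measure β :=
  ∑ ω ∈ s, ((s.card : ENNReal)⁻¹) • Measure.dirac (F ω)

theorem isProbabilityMeasure_unifMap (s : Finset α) (hs : s.Nonempty) (F : α → β) :
    IsProbabilityMeasure (unifMap s F) := by
  constructor
  unfold unifMap
  rw [Measure.finsetSum_apply]
  simp only [Measure.smul_apply, smul_eq_mul, measure_univ, mul_one, sum_const, nsmul_eq_mul]
  exact ENNReal.mul_inv_cancel (by exact_mod_cast hs.card_pos.ne') (ENNReal.natCast_ne_top _)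

theorem ae_unifMap [MeasurableSingletonClass β] (s : Finset α) (F : α → β) {P : β → Prop}
    (h : ∀ ω ∈ s, P (F ω)) : ∀ᵐ y ∂(unifMap s F), P y := by
  unfold unifMap
  rw [ae_finsetSum_measure_iff]
  intro ω hω
  refine Measure.ae_smul_measure ?_ _
  rw [ae_dirac_eq]
  exact h ω hω

theorem integral_unifMap [MeasurableSingletonClass β] (s : Finset α) (F : α → β) (Ψ : β → ℝ) :
    ∫ y, Ψ y ∂(unifMap s F) = avg s (fun ω => Ψ (F ω)) := by
  unfold unifMap avg
  rcases s.eq_empty_or_nonempty with rfl | hs
  · simp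
  rw [integral_finsetSum_measure fun i _ => (integrable_dirac (by finiteness)).smul_measure
    (by simp [hs.ne_empty])]
  simp only [integral_smul_measure, integral_dirac, ENNReal.toReal_inv, ENNReal.toReal_natCast,
    smul_eq_mul]
  rw [← Finset.mul_sum, div_eq_inv_mul]

end Unif

section Main

/-- the nonnegative test functions: positive and negative parts -/
noncomputable def parts {m : ℕ} (f : Fin m → ℝ → ℝ) (i : Fin m × Bool) (x : ℝ) : ℝ :=
  if i.2 then max (f i.1 x) 0 else max (-(f i.1 x)) 0

theorem parts_nonneg {m : ℕ} (f : Fin m → ℝ → ℝ) (i : Fin m × Bool) (x : ℝ) :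
    0 ≤ parts f i x := by
  unfold parts
  split_ifs <;> exact le_max_right _ _

theorem continuous_parts {m : ℕ} (f : Fin m → ℝ → ℝ) (hf : ∀ j, Continuous (f j))
    (i : Fin m × Bool) : Continuous (parts f i) := by
  obtain ⟨j, b⟩ := i
  have := hf j
  cases b
  · show Continuous fun x => max (-(f j x)) 0
    fun_prop
  · show Continuous fun x => max (f j x) 0
    fun_prop

theorem hasCompactSupport_parts {m : ℕ} (f : Fin m → ℝ → ℝ) (hf : ∀ j, HasCompactSupport (f j))
    (i : Fin m × Bool) : HasCompactSupport (parts f i) := by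
  obtain ⟨j, b⟩ := i
  refine (hf j).mono fun x hx => ?_
  rw [Function.mem_support] at hx ⊢
  intro h0
  apply hx
  cases b <;> simp [parts, h0]

theorem parts_sub {m : ℕ} (f : Fin m → ℝ → ℝ) (j : Fin m) (x : ℝ) :
    parts f (j, true) x - parts f (j, false) x = f j x := by
  simp only [parts, Bool.false_eq_true, if_false, if_true]
  rcases le_total 0 (f j x) with h | h
  · rw [max_eq_left h, max_eq_right (by linarith)]; ring
  · rw [max_eq_right h, max_eq_left (by linarith)]; ring

variable {ι : Type*} [Fintype ι]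

/-- vector of linear statistics, graph -/
noncomputable def vecG (n d : ℕ) (g : ι → ℝ → ℝ) (E : ℝ) (G : SimpleGraph (Fin n)) : ι → ℝ :=
  fun i => ∫ x, g i x ∂(Xi n d E G)

/-- vector of linear statistics, GOE -/
noncomputable def vecW (n : ℕ) (g : ι → ℝ → ℝ) (w : Upper n → ℝ) : ι → ℝ :=
  fun i => ∫ x, g i x ∂(XiGOE n w)

omit [Fintype ι] in
theorem vecG_nonneg (n d : ℕ) (g : ι → ℝ → ℝ) (h : ∀ i x, 0 ≤ g i x) (E : ℝ)
    (G : SimpleGraph (Fin n)) (i : ι) : 0 ≤ vecG n d g E G i :=
  integral_nonneg fun x => h i x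

omit [Fintype ι] in
theorem vecW_nonneg (n : ℕ) (g : ι → ℝ → ℝ) (h : ∀ i x, 0 ≤ g i x)
    (w : Upper n → ℝ) (i : ι) : 0 ≤ vecW n g w i :=
  integral_nonneg fun x => h i x

/-- nonnegative integer combinations -/
noncomputable def comb (g : ι → ℝ → ℝ) (t : ι →₀ ℕ) (x : ℝ) : ℝ := ∑ i, (t i : ℝ) * g i x

theorem sum_vecG (n d : ℕ) (g : ι → ℝ → ℝ) (t : ι →₀ ℕ) (E : ℝ) (G : SimpleGraph (Fin n)) :
    ∑ i, (t i : ℝ) * vecG n d g E G i = ∫ x, comb g t x ∂(Xi n d E G) := by
  simp only [vecG, integral_Xi, comb, Finset.mul_sum]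
  rw [Finset.sum_comm]

theorem sum_vecW (n : ℕ) (g : ι → ℝ → ℝ) (t : ι →₀ ℕ) (w : Upper n → ℝ) :
    ∑ i, (t i : ℝ) * vecW n g w i = ∫ x, comb g t x ∂(XiGOE n w) := by
  simp only [vecW, integral_XiGOE, comb, Finset.mul_sum]
  rw [Finset.sum_comm]

theorem continuous_comb (g : ι → ℝ → ℝ) (hg : ∀ i, Continuous (g i)) (t : ι →₀ ℕ) :
    Continuous (comb g t) := by
  unfold comb
  exact continuous_finsetSum _ fun i _ => (hg i).const_mul _

theorem comb_nonneg (g : ι → ℝ → ℝ) (hg : ∀ i x, 0 ≤ g i x) (t : ι →₀ ℕ) (x : ℝ) :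
    0 ≤ comb g t x :=
  Finset.sum_nonneg fun i _ => mul_nonneg (Nat.cast_nonneg _) (hg i x)

theorem hasCompactSupport_comb (g : ι → ℝ → ℝ) (hg : ∀ i, HasCompactSupport (g i))
    (t : ι →₀ ℕ) : HasCompactSupport (comb g t) := by
  classical
  have hK : IsCompact (⋃ i, tsupport (g i)) := isCompact_iUnion fun i => hg i
  refine HasCompactSupport.of_support_subset_isCompact hK fun x hx => ?_
  rw [Function.mem_support] at hx
  by_contra hcon
  apply hx
  unfold comb
  refine Finset.sum_eq_zero fun i _ => ?_
  have : g i x = 0 := by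
    by_contra h0
    exact hcon (Set.mem_iUnion.mpr ⟨i, subset_tsupport _ h0⟩)
  rw [this, mul_zero]

/-- **Upgrade.** Energy averaged convergence of Laplace functionals on compact subintervals of the
bulk gives the joint convergence of linear statistics on the whole bulk. -/
theorem target_of_specMain (d : ℕ) (hd : 3 ≤ d) (hM : SpecMain d) (hT : GoeTight) : Target d := by
  classical
  intro m f hf hfc Φ hΦ ⟨C, hC⟩
  have hC0 : 0 ≤ C := (abs_nonneg _).trans (hC 0)
  have hd' : (3 : ℝ) ≤ d := by exact_mod_cast hd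
  set β : ℝ := 2 * Real.sqrt (d - 1) with hβ
  have hβ0 : 0 < β := by
    have : 0 < Real.sqrt (d - 1) := Real.sqrt_pos.mpr (by linarith)
    positivity
  set g : Fin m × Bool → ℝ → ℝ := parts f with hg
  have hgc : ∀ i, Continuous (g i) := continuous_parts f hf
  have hgs : ∀ i, HasCompactSupport (g i) := hasCompactSupport_parts f hfc
  have hg0 : ∀ i x, 0 ≤ g i x := parts_nonneg f
  let Ψ : (Fin m × Bool → ℝ) → ℝ := fun y => Φ (fun j => y (j, true) - y (j, false))
  have hΨ : Continuous Ψ := hΦ.comp (by fun_prop)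
  have hΨC : ∀ y, |Ψ y| ≤ C := fun y => hC _
  -- the two averages in terms of `Ψ`
  have hAG : ∀ n E, avgGraph n d E f Φ = avg (regularGraphs n d) (fun G => Ψ (vecG n d g E G)) := by
    intro n E
    unfold avgGraph avg
    congr 1
    refine Finset.sum_congr rfl fun G _ => ?_
    simp only [Ψ]
    congr 1
    funext j
    simp only [vecG, integral_Xi, ← Finset.sum_sub_distrib, hg, parts_sub]
  have hAW : ∀ n, avgGOE n f Φ = ∫ w, Ψ (vecW n g w) ∂(goeLaw n) := by
    intro n
    unfold avgGOE
    congr 1
    funext w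
    simp only [Ψ]
    congr 1
    funext j
    simp only [vecW, integral_XiGOE, ← Finset.sum_sub_distrib, hg, parts_sub]
  -- admissible sizes
  have hadm : (atTop ⊓ 𝓟 {n : ℕ | d < n ∧ Even (n * d)} : Filter ℕ) = admissible d := rfl
  rw [hadm]
  -- regular graphs exist eventually
  have hne : ∀ᶠ n in admissible d, (regularGraphs n d).Nonempty := by
    have h0 := hM (-(β / 2)) (β / 2) (by linarith) (by linarith) (by linarith) (fun _ => 0)
      continuous_const (HasCompactSupport.zero) (fun _ => le_rfl)
    have h1 := h0.eventually_lt_const (show (0 : ℝ) < β / 2 by linarith)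
    filter_upwards [h1] with n hn
    by_contra hcon
    rw [Finset.not_nonempty_iff_eq_empty] at hcon
    rw [hcon] at hn
    have : IsProbabilityMeasure (goeLaw n) := by unfold goeLaw; infer_instance
    simp only [integral_zero, neg_zero, Real.exp_zero, integral_const, probReal_univ, smul_eq_mul,
      mul_one] at hn
    simp only [avg, Finset.sum_empty, Finset.card_empty, Nat.cast_zero, zero_div, zero_sub,
      abs_neg, abs_one, intervalIntegral.integral_const, smul_eq_mul, mul_one] at hn
    linarith
  set I : Set ℝ := Set.Ioo (-β) β with hI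
  -- the difference
  set D : ℕ → ℝ → ℝ := fun n E => |avgGraph n d E f Φ - avgGOE n f Φ| with hD
  have hDC : ∀ n E, D n E ≤ 2 * C := by
    intro n E
    have a1 : |avgGraph n d E f Φ| ≤ C := by
      rw [hAG]
      unfold avg
      rw [abs_div, Nat.abs_cast]
      refine div_le_of_le_mul₀ (Nat.cast_nonneg _) hC0 ?_
      refine (Finset.abs_sum_le_sum_abs _ _).trans ?_
      refine (Finset.sum_le_sum fun G _ => hΨC _).trans ?_
      rw [Finset.sum_const, nsmul_eq_mul, mul_comm]
    have a2 : |avgGOE n f Φ| ≤ C := by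
      have : IsProbabilityMeasure (goeLaw n) := by unfold goeLaw; infer_instance
      rw [hAW, ← Real.norm_eq_abs]
      refine (norm_integral_le_of_norm_le_const (C := C) (Eventually.of_forall fun w => ?_)).trans ?_
      · rw [Real.norm_eq_abs]; exact hΨC _
      · simp
    calc D n E ≤ |avgGraph n d E f Φ| + |avgGOE n f Φ| := abs_sub _ _
      _ ≤ 2 * C := by linarith
  have hDcont : ∀ n, ContinuousOn (D n) I := by
    intro n
    refine ContinuousOn.abs (ContinuousOn.sub ?_ continuousOn_const)
    simp only [hAG]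
    unfold avg
    refine ContinuousOn.div_const ?_ _
    refine continuousOn_finsetSum _ fun G _ => ?_
    refine hΨ.comp_continuousOn ?_
    exact continuousOn_pi.mpr fun i => continuousOn_integral_Xi n d hd G (g i) (hgc i)
  have hDint : ∀ n, IntegrableOn (D n) I := by
    intro n
    have hfin : IsFiniteMeasure (volume.restrict I) := ⟨by simp [hI]⟩
    refine Integrable.of_bound ((hDcont n).aestronglyMeasurable measurableSet_Ioo) (2 * C)
      (Eventually.of_forall fun E => ?_)
    rw [Real.norm_eq_abs, abs_of_nonneg (abs_nonneg _)]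
    exact hDC n E
  -- Laplace differences
  set L : (Fin m × Bool →₀ ℕ) → ℕ → ℝ → ℝ := fun t n E =>
    |avg (regularGraphs n d) (fun G => Real.exp (-∫ x, comb g t x ∂(Xi n d E G)))
      - ∫ w, Real.exp (-∫ x, comb g t x ∂(XiGOE n w)) ∂(goeLaw n)| with hL
  have hLcont : ∀ t n, ContinuousOn (L t n) I := by
    intro t n
    refine ContinuousOn.abs (ContinuousOn.sub ?_ continuousOn_const)
    unfold avg
    refine ContinuousOn.div_const ?_ _
    refine continuousOn_finsetSum _ fun G _ => ?_
    exact Real.continuous_exp.comp_continuousOn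
      (continuousOn_integral_Xi n d hd G (comb g t) (continuous_comb g hgc t)).neg
  -- reduction to a linear bound in `ε`
  suffices hmain : ∀ ε : ℝ, 0 < ε → ε < β → ∀ᶠ n in admissible d,
      ∫ E in I, D n E ≤ (4 * C + 2 * β * (4 * C + 2) + 1) * ε by
    rw [Metric.tendsto_nhds]
    intro ε hε
    set K : ℝ := 4 * C + 2 * β * (4 * C + 2) + 1 with hK
    have hK1 : 1 ≤ K := by rw [hK]; nlinarith
    have hmin : 0 < min (ε / (2 * K)) (β / 2) := by positivity
    filter_upwards [hmain _ hmin (lt_of_le_of_lt (min_le_right _ _) (by linarith))] with n hn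
    have hnn : 0 ≤ ∫ E in I, D n E := integral_nonneg fun E => abs_nonneg _
    rw [Real.dist_eq, sub_zero, abs_of_nonneg hnn]
    refine lt_of_le_of_lt hn ?_
    calc K * min (ε / (2 * K)) (β / 2) ≤ K * (ε / (2 * K)) := by gcongr; exact min_le_left _ _
      _ = ε / 2 := by field_simp
      _ < ε := by linarith
  intro ε hε hεβ
  -- tightness of the GOE vector
  have htight : ∃ R : ℝ, ∀ᶠ n in admissible d,
      (goeLaw n).real {w | ∃ i, R < vecW n g w i} ≤ ε := by
    set N : ℝ := (Fintype.card (Fin m × Bool) : ℝ) + 1 with hN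
    have hN0 : 0 < N := by positivity
    choose R hR using fun i => hT (g i) (hgc i) (hgs i) (hg0 i) (ε / N) (by positivity)
    refine ⟨∑ i, |R i|, ?_⟩
    have hev : ∀ᶠ n in admissible d, ∀ i, (goeLaw n).real {w | R i < vecW n g w i} ≤ ε / N := by
      rw [eventually_all]
      intro i
      exact (hR i).filter_mono inf_le_left
    filter_upwards [hev] with n hn
    have : IsProbabilityMeasure (goeLaw n) := by unfold goeLaw; infer_instance
    have hsub : {w : Upper n → ℝ | ∃ i, ∑ i, |R i| < vecW n g w i} ⊆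
        ⋃ i ∈ (Finset.univ : Finset (Fin m × Bool)), {w | R i < vecW n g w i} := by
      rintro w ⟨i, hi⟩
      refine Set.mem_iUnion₂.mpr ⟨i, Finset.mem_univ _, ?_⟩
      refine lt_of_le_of_lt ((le_abs_self _).trans ?_) hi
      exact Finset.single_le_sum (f := fun i => |R i|) (fun _ _ => abs_nonneg _)
        (Finset.mem_univ i)
    refine (measureReal_mono hsub (measure_ne_top _ _)).trans ?_
    refine (measureReal_biUnion_finset_le _ _).trans ?_
    refine (Finset.sum_le_sum fun i _ => hn i).trans ?_
    rw [Finset.sum_const, nsmul_eq_mul, Finset.card_univ, ← mul_div_assoc, div_le_iff₀ hN0, hN]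
    nlinarith
  obtain ⟨R, hR⟩ := htight
  obtain ⟨T, A, hA0, hcmp⟩ := laplace_compare Ψ hΨ hΨC R hε
  -- pointwise comparison
  have hpt : ∀ᶠ n in admissible d, ∀ E, D n E ≤ (4 * C + 2) * ε + A * ∑ t ∈ T, L t n E := by
    filter_upwards [hR, hne] with n hRn hnen E
    have hW : IsProbabilityMeasure (goeLaw n) := by unfold goeLaw; infer_instance
    have hcW : Continuous (vecW n g) :=
      continuous_pi fun i => continuous_integral_XiGOE n (g i) (hgc i)
    have hmW : Measurable (vecW n g) := hcW.measurable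
    have i1 : IsProbabilityMeasure (unifMap (regularGraphs n d) (vecG n d g E)) :=
      isProbabilityMeasure_unifMap _ hnen _
    have i2 : IsProbabilityMeasure ((goeLaw n).map (vecW n g)) :=
      Measure.isProbabilityMeasure_map hmW.aemeasurable
    have hmeas : MeasurableSet {y : Fin m × Bool → ℝ | ∃ i, R < y i} := by
      have : {y : Fin m × Bool → ℝ | ∃ i, R < y i} = ⋃ i, {y | R < y i} := by ext; simp
      rw [this]
      exact MeasurableSet.iUnion fun i => measurableSet_lt measurable_const (measurable_pi_apply i)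
    have key := hcmp (unifMap (regularGraphs n d) (vecG n d g E)) ((goeLaw n).map (vecW n g))
      (ae_unifMap _ _ fun G _ => vecG_nonneg n d g hg0 E G)
      (by
        rw [ae_map_iff hmW.aemeasurable (by
          rw [show {x : Fin m × Bool → ℝ | ∀ i, 0 ≤ x i} = ⋂ i, {x | 0 ≤ x i} by ext; simp]
          exact MeasurableSet.iInter fun i => measurableSet_le measurable_const
            (measurable_pi_apply i))]
        exact Eventually.of_forall fun w => vecW_nonneg n g hg0 w)
      (by
        rw [map_measureReal_apply hmW hmeas]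
        exact hRn)
    rw [integral_unifMap, integral_map hmW.aemeasurable hΨ.aestronglyMeasurable, ← hAG n E,
      ← hAW n] at key
    refine key.trans (le_of_eq ?_)
    congr 2
    refine Finset.sum_congr rfl fun t _ => ?_
    simp only [hL, lapN]
    rw [integral_unifMap, integral_map hmW.aemeasurable
      (Continuous.aestronglyMeasurable (by fun_prop))]
    simp only [sum_vecG, sum_vecW]
  -- integration
  set a : ℝ := -β + ε / 2 with ha
  set b : ℝ := β - ε / 2 with hb
  have hab : a < b := by rw [ha, hb]; linarith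
  have hLt : ∀ t ∈ T, ∀ᶠ n in admissible d, ∫ E in a..b, L t n E ≤ ε / ((T.card + 1) * (A + 1)) := by
    intro t _
    have h0 := hM a b hab (by rw [ha]; linarith) (by rw [hb]; linarith) (comb g t)
      (continuous_comb g hgc t) (hasCompactSupport_comb g hgs t) (comb_nonneg g hg0 t)
    exact (h0.eventually_lt_const (by positivity)).mono fun n hn => hn.le
  have hLt' : ∀ᶠ n in admissible d, ∀ t ∈ T,
      ∫ E in a..b, L t n E ≤ ε / ((T.card + 1) * (A + 1)) := by
    rw [Filter.eventually_all_finset]
    exact hLt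
  filter_upwards [hpt, hLt'] with n hn hLn
  set J : Set ℝ := Set.Ioc a b with hJ
  have hJI : J ⊆ I := by
    intro x hx
    rw [hJ, ha, hb] at hx
    rw [hI]
    exact ⟨by linarith [hx.1], by linarith [hx.2]⟩
  have hsplit : ∫ E in I, D n E = (∫ E in J, D n E) + ∫ E in I \ J, D n E := by
    rw [← setIntegral_union Set.disjoint_sdiff_right (measurableSet_Ioo.diff measurableSet_Ioc)
      ((hDint n).mono_set hJI) ((hDint n).mono_set Set.diff_subset), Set.union_diff_cancel hJI]
  have hout : ∫ E in I \ J, D n E ≤ 2 * C * ε := by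
    have h1 : ‖∫ E in I \ J, D n E‖ ≤ 2 * C * volume.real (I \ J) := by
      refine norm_setIntegral_le_of_norm_le_const ?_ fun E _ => ?_
      · exact lt_of_le_of_lt (measure_mono Set.diff_subset) (by simp [hI])
      · rw [Real.norm_eq_abs, abs_of_nonneg (abs_nonneg _)]
        exact hDC n E
    have h2 : volume.real (I \ J) = ε := by
      rw [measureReal_diff hJI measurableSet_Ioc (by simp [hI]), hI, hJ, Real.volume_real_Ioo_of_le (by linarith),
        Real.volume_real_Ioc_of_le hab.le, ha, hb]
      ring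
    rw [h2] at h1
    exact (le_abs_self _).trans h1
  have hLint : ∀ t ∈ T, IntegrableOn (L t n) J := by
    intro t _
    have hc : ContinuousOn (L t n) (Set.Icc a b) := (hLcont t n).mono fun x hx => by
      rw [ha, hb] at hx
      rw [hI]
      exact ⟨by linarith [hx.1], by linarith [hx.2]⟩
    exact (hc.integrableOn_compact isCompact_Icc).mono_set Set.Ioc_subset_Icc_self
  have hfinJ : IsFiniteMeasure (volume.restrict J) := ⟨by simp [hJ]⟩
  have hin : ∫ E in J, D n E ≤ 2 * β * ((4 * C + 2) * ε) + ε := by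
    have h1 : ∫ E in J, D n E ≤ ∫ E in J, ((4 * C + 2) * ε + A * ∑ t ∈ T, L t n E) := by
      refine setIntegral_mono_on ((hDint n).mono_set hJI) ?_ measurableSet_Ioc fun E _ => hn E
      refine Integrable.add ?_ ?_
      · exact integrable_const _
      · exact (integrable_finsetSum _ hLint).const_mul A
    refine h1.trans ?_
    have h2 : ∫ E in J, ((4 * C + 2) * ε + A * ∑ t ∈ T, L t n E) =
        (b - a) * ((4 * C + 2) * ε) + A * ∑ t ∈ T, ∫ E in J, L t n E := by
      rw [integral_add (integrable_const _)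
        ((integrable_finsetSum _ hLint).const_mul A),
        integral_const_mul (μ := volume.restrict J) A (fun E => ∑ t ∈ T, L t n E),
        integral_finsetSum _ hLint]
      congr 1
      rw [setIntegral_const, hJ, Real.volume_real_Ioc_of_le hab.le, smul_eq_mul]
    rw [h2]
    have h3 : ∑ t ∈ T, ∫ E in J, L t n E ≤ T.card * (ε / ((T.card + 1) * (A + 1))) := by
      rw [← nsmul_eq_mul]
      refine Finset.sum_le_card_nsmul _ _ _ fun t ht => ?_
      have := hLn t ht
      rw [intervalIntegral.integral_of_le hab.le] at this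
      exact this
    have h4 : A * ∑ t ∈ T, ∫ E in J, L t n E ≤ ε := by
      refine (mul_le_mul_of_nonneg_left h3 hA0).trans ?_
      rw [← mul_div_assoc, ← mul_div_assoc, div_le_iff₀ (by positivity)]
      have : (0 : ℝ) ≤ T.card := Nat.cast_nonneg _
      nlinarith [mul_nonneg this hA0]
    have h5 : (b - a) * ((4 * C + 2) * ε) ≤ 2 * β * ((4 * C + 2) * ε) := by
      refine mul_le_mul_of_nonneg_right ?_ (by positivity)
      rw [ha, hb]; linarith
    linarith
  rw [hsplit]
  nlinarith
end Main

end Vale.Agent.P156.H849
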